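import Vale.Agent.P011UF2.Defs

/-!
The arithmetic step for the isotropic forms of `E₆`.
-/

set_option autoImplicit false
set_option linter.all false

namespace Vale.Agent.P011UQ74

open Matrix Vale.Agent.P011L Vale.Agent.P011LD Vale.Agent.P011LE Vale.Agent.P011U
  Vale.Agent.P011UF2

section

variable {k K : Type} [Field k] [Field K] [Algebra k K] {n : Type} [Fintype n] [DecidableEq n]
  {o ε : (K ≃ₐ[k] K) →* ℤˣ} {M : (K ≃ₐ[k] K) → GL n K}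
  {Y : Matrix n (Fin 3 ⊕ Fin 3) K} {Y' : Matrix (Fin 3 ⊕ Fin 3) n K}
  {d d' : (K ≃ₐ[k] K) → GL (Fin 3) K}

theorem sgn {δ : K} (h0 : δ ≠ -δ) (h : ∀ σ : K ≃ₐ[k] K, σ δ = δ ∨ σ δ = -δ) :
    ∃ ε : (K ≃ₐ[k] K) →* ℤˣ, ∀ σ, ε σ = 1 ↔ σ δ = δ := by
  classical
  refine ⟨MonoidHom.mk' (fun σ => if σ δ = δ then 1 else -1) fun σ τ => ?_, fun σ => ?_⟩
  · rcases h σ with a | a <;> rcases h τ with b | b <;>
      simp [AlgEquiv.mul_apply, a, b, h0.symm]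
  · by_cases a : σ δ = δ <;> simp [a]

theorem sw_of {δ : K} (h : ∀ σ : K ≃ₐ[k] K, σ δ = δ ∨ σ δ = -δ) (e : ∀ σ, ε σ = 1 ↔ σ δ = δ) :
    Sw ε δ (-δ) := fun σ =>
  ⟨fun a => ⟨(e σ).1 a, by rw [map_neg, (e σ).1 a]⟩, fun a =>
    have := (h σ).resolve_left fun b => a ((e σ).2 b)
    ⟨this, by rw [map_neg, this, neg_neg]⟩⟩

theorem nspl (h1 : Y' * Y = 1) (h : ∀ σ, (M σ).1 * (if o σ = 1 then Y.map σ else (Y'.map σ)ᵀ) =
    Y * fromBlocks (d σ).1 0 0 (d' σ).1) (c : Spl o d') : Spl o M := by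
  obtain ⟨v, v0, hv⟩ := c
  refine ⟨Y *ᵥ Sum.elim 0 v, fun e => v0 (funext fun i => ?_), fun σ a => (hv σ a).imp fun μ e => ?_⟩
  · have := congrArg (Y' *ᵥ ·) e
    simp only [mulVec_mulVec, h1, one_mulVec, mulVec_zero] at this
    exact congrFun this (.inr i)
  · have h2 := h σ
    rw [if_pos a] at h2
    have h3 : σ ∘ (Y *ᵥ Sum.elim 0 v) = Y.map σ *ᵥ Sum.elim 0 (σ ∘ v) := funext fun i =>
      (RingHom.map_mulVec (σ : K →+* K) Y _ i).trans (congrArg (fun w => (Y.map σ *ᵥ w) i)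
        (funext fun j => by cases j <;> simp))
    rw [h3, mulVec_mulVec, h2, ← mulVec_mulVec, fromBlocks_mulVec, ← mulVec_smul]
    congr 1
    funext j
    cases j <;> simp [e]

theorem lg_of (h1 : Y' * Y = 1) (h : ∀ σ, (M σ).1 * (if o σ = 1 then Y.map σ else (Y'.map σ)ᵀ) =
    Y * fromBlocks (d σ).1 0 0 (d' σ).1) {x : GL (Fin 3) K} {u : Matrix (Fin 3) (Fin 3) K}
    (hx : Xu o d d' x u) {t : GL (Fin 3) K} (ht : ∀ σ, ε σ = 1 →
      (o σ = 1 → t.1 * (d' σ).1 = (d' σ).1 * t.1.map σ) ∧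
      (o σ ≠ 1 → u * (d' σ).1 = t.1 * (d' σ).1 * (t.1.map σ)ᵀ)) :
    ∃ P, Lg o M ε P := by
  refine ⟨Y * (fromRows 1 (t⁻¹ * x).1 : Matrix (Fin 3 ⊕ Fin 3) (Fin 3) K), le_antisymm ((rank_le_card_width _).trans (by simp)) ?_, fun σ s => ⟨fun a => ?_,
    fun a => ?_⟩⟩
  · have : (fromCols 1 0 : Matrix (Fin 3) (Fin 3 ⊕ Fin 3) K) * Y' *
        (Y * (fromRows 1 (t⁻¹ * x).1 : Matrix (Fin 3 ⊕ Fin 3) (Fin 3) K)) = 1 := by
      rw [Matrix.mul_assoc, ← Matrix.mul_assoc Y', h1, Matrix.one_mul, fromCols_mul_fromRows]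
      simp
    have h2 := rank_mul_le_right ((fromCols 1 0 : Matrix (Fin 3) (Fin 3 ⊕ Fin 3) K) * Y')
      (Y * (fromRows 1 (t⁻¹ * x).1 : Matrix (Fin 3 ⊕ Fin 3) (Fin 3) K))
    rwa [this, rank_one, Fintype.card_fin] at h2
  · have h2 := h σ
    rw [if_pos a] at h2
    have h3 : (d' σ).1 * (t⁻¹ * x).1.map σ = (t⁻¹ * x).1 * (d σ).1 := by
      rw [Units.val_mul, Matrix.mul_assoc, ← hx.1 σ a, Units.eq_inv_mul_iff_mul_eq,
        ← Matrix.mul_assoc, (ht σ s).1 a, Matrix.mul_assoc, ← map_mul',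
        Units.mul_inv_cancel_left]
    refine ⟨(d σ).1, Eq.trans ?_ (Matrix.mul_assoc Y _ (d σ).1).symm⟩
    rw [map_mul', ← Matrix.mul_assoc, h2, Matrix.mul_assoc, fromRows_map,
      fromBlocks_mul_fromRows, fromRows_mul, map_one', h3]
    simp
  · have h2 := h σ
    rw [if_neg a] at h2
    have h3 : (M σ)⁻¹.1 * Y = (Y'.map σ)ᵀ * fromBlocks (d σ)⁻¹.1 0 0 (d' σ)⁻¹.1 := by
      rw [← Matrix.one_mul (_ * fromBlocks _ _ _ _), ← (M σ).inv_mul, Matrix.mul_assoc,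
        ← Matrix.mul_assoc (M σ).1, h2, Matrix.mul_assoc Y, fromBlocks_multiply]
      simp
    have h4 : (Y.map σ)ᵀ * (Y'.map σ)ᵀ = 1 := by
      rw [← transpose_mul, ← map_mul', h1, map_one', transpose_one]
    have h5 : (t⁻¹ * x).1 * (d σ).1 * ((t⁻¹ * x).1.map σ)ᵀ = -(d' σ).1 := by
      have h6 := ((ht σ s).2 a).symm.trans (hx.2.1 σ a)
      have h7 : (t.1.map σ)ᵀ * (t⁻¹.1.map σ)ᵀ = 1 := by
        rw [← transpose_mul, ← map_mul', Units.inv_mul, map_one', transpose_one]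
      have := congrArg (fun Z => -(t⁻¹.1 * Z * (t⁻¹.1.map σ)ᵀ)) h6
      simp only [Matrix.mul_assoc, h7, Matrix.mul_one, Units.inv_mul_cancel_left, Matrix.mul_neg,
        Matrix.neg_mul, neg_neg] at this
      rw [this, Units.val_mul, map_mul', transpose_mul]
      simp only [Matrix.mul_assoc]
    have h6 : ((t⁻¹ * x).1.map σ)ᵀ * (d' σ)⁻¹.1 * (t⁻¹ * x).1 = -(d σ)⁻¹.1 := by
      have h7 : (t⁻¹ * x).1 * ((d σ).1 * ((t⁻¹ * x).1.map σ)ᵀ * -(d' σ)⁻¹.1) = 1 := by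
        rw [← Matrix.mul_assoc, ← Matrix.mul_assoc, h5, neg_mul_neg, Units.mul_inv]
      rw [mul_eq_one_comm, Matrix.mul_assoc, Matrix.mul_assoc, ← Units.eq_inv_mul_iff_mul_eq,
        Matrix.mul_one] at h7
      rw [← h7]
      simp [Matrix.mul_assoc]
    rw [map_mul', transpose_mul, Matrix.mul_assoc, Matrix.mul_assoc, ← Matrix.mul_assoc _ Y, h3,
      Matrix.mul_assoc, ← Matrix.mul_assoc (Y.map σ)ᵀ, h4, Matrix.one_mul, fromRows_map,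
      transpose_fromRows, fromBlocks_mul_fromRows, fromCols_mul_fromRows, map_one']
    simp only [transpose_one, Matrix.one_mul, Matrix.mul_one, Matrix.zero_mul, add_zero, zero_add,
      ← Matrix.mul_assoc, h6, add_neg_cancel]

theorem sm_blk (h0 : Y * Y' = 1) (h1 : Y' * Y = 1) {s : K ≃ₐ[k] K} {B : Matrix _ _ K}
    (h : (M s).1 * (Y'.map s)ᵀ = Y * B) {t : K} {X : GL n K}
    (hX : X.1 * (M s).1 * (X.1.map s)ᵀ = t • (M s).1) :
    ∃ X : GL (Fin 3 ⊕ Fin 3) K, X.1 * B * (X.1.map s)ᵀ = t • B := by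
  have k : ∀ Z Z' : Matrix n n K, Z * Z' = 1 → Y' * Z * Y * (Y' * Z' * Y) = 1 := fun Z Z' e => by
    simp only [Matrix.mul_assoc]
    rw [← Matrix.mul_assoc Y, h0, Matrix.one_mul, ← Matrix.mul_assoc Z, e, Matrix.one_mul, h1]
  refine ⟨⟨Y' * X.1 * Y, Y' * X⁻¹.1 * Y, k _ _ X.mul_inv, k _ _ X.inv_mul⟩, ?_⟩
  have h4 : (Y'.map s)ᵀ * (Y.map s)ᵀ = 1 := by
    rw [← transpose_mul, ← map_mul', h0, map_one', transpose_one]
  show Y' * X.1 * Y * B * ((Y' * X.1 * Y).map s)ᵀ = _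
  rw [Matrix.mul_assoc _ Y, ← h, map_mul', map_mul', transpose_mul, transpose_mul]
  simp only [Matrix.mul_assoc]
  rw [← Matrix.mul_assoc (Y'.map s)ᵀ, h4, Matrix.one_mul, ← Matrix.mul_assoc (M s).1,
    ← Matrix.mul_assoc X.1, ← Matrix.mul_assoc X.1, hX, Matrix.smul_mul, h, Matrix.mul_smul,
    ← Matrix.mul_assoc, h1, Matrix.one_mul]

end

theorem ari (ix : IDX) (lg : LAG) (sy : SYM) (bk : BLK) (ds : DSC) (lf : LFF) (ln : LNF) :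
    ARI := by
  intro k K _ _ _ _ _ n _ _ hn o M κ h hk hs t X t0 hX
  have one : ∀ E, Id3 o M 1 E → ∃ ε E a b, Id3 o M ε E ∧ Sw ε a b ∧
      a * b = algebraMap k K t ∧ (t ≠ 1 → a ≠ b) := fun E e =>
    ⟨1, E, _, 1, e, fun σ => ⟨fun _ => ⟨σ.commutes t, map_one σ⟩, fun c => absurd rfl c⟩, mul_one _,
      fun a b => a ((algebraMap k K).injective (b.trans (map_one _).symm))⟩
  by_cases ho : ∃ s, o s ≠ 1
  swap
  · obtain ⟨E, h1, h2, h3⟩ := ix k K n hn o M κ h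
    refine one E ⟨h2, h3, fun σ => ?_⟩
    have a : o σ = 1 := by_contra fun c => ho ⟨σ, c⟩
    rw [ac, if_pos a, ← h1 σ a, Units.mul_inv_cancel_right]
    rfl
  obtain ⟨E, hE | hE⟩ := sy k K n hn o M κ h hs ho
  · exact one E hE
  obtain ⟨Y, Y', d, d', κ', h0, h1, h2, h3⟩ := bk k K n hn o M κ h E hE
  obtain ⟨x, u, hx⟩ := ds k K o d d' κ' h2 ho
  by_cases hN : NumberField k
  swap
  · obtain ⟨τ, h4, h5⟩ := lf k K o d d' κ' h2 ho hk hN (fun c => hs (nspl h1 h3 c)) x u hx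
    obtain ⟨P, hP⟩ := lg_of (ε := 1) h1 h3 hx fun σ _ => ⟨h4 σ, h5 σ⟩
    obtain ⟨E', h6⟩ := lg k K n hn o M κ h hs 1 P ⟨∅, fun _ _ _ => rfl⟩
      (ho.imp fun _ a => ⟨rfl, a⟩) hP
    exact one E' (h6.elim id id)
  have : CharZero K := charZero_of_injective_algebraMap (algebraMap k K).injective
  have := IsSepClosure.sep_closed k (K := K)
  obtain ⟨δ, hδ⟩ := IsSepClosed.exists_pow_nat_eq (-algebraMap k K t) 2
  have δ0 : δ ≠ 0 := by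
    rintro rfl
    exact (_root_.map_ne_zero (algebraMap k K)).2 t0 (by simpa using hδ.symm)
  have δ1 : δ ≠ -δ := fun c => δ0 (self_eq_neg.1 c)
  have δ2 : ∀ σ : K ≃ₐ[k] K, σ (δ ^ 2) = δ ^ 2 := fun σ => by rw [hδ, map_neg, σ.commutes]
  have δ3 : ∀ σ : K ≃ₐ[k] K, σ δ = δ ∨ σ δ = -δ := fun σ =>
    sq_eq_sq_iff_eq_or_eq_neg.1 ((map_pow σ δ 2).symm.trans (δ2 σ))
  have two : ∀ ε E, (∀ σ, ε σ = 1 ↔ σ δ = δ) → Id3 o M ε E → ∃ ε E a b, Id3 o M ε E ∧ Sw ε a b ∧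
      a * b = algebraMap k K t ∧ (t ≠ 1 → a ≠ b) := fun ε E e e' =>
    ⟨ε, E, δ, -δ, e', sw_of δ3 e, by rw [mul_neg, ← sq, hδ, neg_neg], fun _ => δ1⟩
  by_cases hc : ∃ s, s δ = δ ∧ o s ≠ 1
  swap
  · obtain ⟨s, a⟩ := ho
    refine two o E (fun σ => ⟨fun b => (δ3 σ).resolve_right fun c => hc ⟨σ * s, ?_, ?_⟩,
      fun b => by_contra fun c => hc ⟨σ, b, c⟩⟩) hE
    · rw [AlgEquiv.mul_apply, (δ3 s).resolve_left fun c => hc ⟨s, c, a⟩, map_neg, c, neg_neg]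
    · rwa [map_mul, b, one_mul]
  obtain ⟨ε, hε⟩ := sgn δ1 δ3
  obtain ⟨τ, h4⟩ := ln k K o d d' κ' h2 ho hN x u hx δ δ0 δ2 hc fun s a => by
    have h5 := h3 s
    rw [if_neg a] at h5
    rw [hδ, neg_neg]
    exact sm_blk h0 h1 h5 (hX.2 s a)
  obtain ⟨P, hP⟩ := lg_of h1 h3 hx fun σ a => h4 σ ((hε σ).1 a)
  obtain ⟨E', h6 | h6⟩ := lg k K n hn o M κ h hs ε P ((Op.fix ⊤ δ).imp fun σ _ a => (hε σ).2 a)
    (hc.imp fun s a => ⟨(hε s).2 a.1, a.2⟩) hP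
  exacts [one E' h6, two ε E' hε h6]

end Vale.Agent.P011UQ74
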