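import Vale.Agent.P011UQ74.E6a
import Vale.Agent.P011UHB1.Hba
import Vale.Agent.P011UGC5.Opn
import Vale.Agent.P011UV.Par

/-!
Forms of `E₆` over function fields are isotropic.
-/

set_option autoImplicit false
set_option linter.all false

namespace Vale.Agent.P011UQ74

open Matrix Vale.Agent.P011L Vale.Agent.P183CH Vale.Agent.P011U Vale.Agent.P011UHB
  Vale.Agent.P011UP CartanMatrix

section

variable {R : RS} {e : Fin R.r ≃ Fin 6}

theorem j0_st (t : Ty R E₆ e) (π : Equiv.Perm (Fin R.r)) (hπ : Dg R π) (i : Fin R.r) :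
    π i ∈ J0 e ↔ i ∈ J0 e := by
  have h1 : e (π i) = e.permCongr π (e i) := by simp
  simp only [J0, Set.mem_setOf_eq, h1]
  generalize e i = a
  rcases P011UGC5.e6 (t.au hπ) with b | b <;> rw [b] <;> revert a <;> decide

theorem j0_ne : J0 e ≠ Set.univ := fun h =>
  (h.ge (Set.mem_univ (e.symm 1))).1 (e.apply_symm_apply 1)

theorem dg_two (t : Ty R E₆ e) {p q : Equiv.Perm (Fin R.r)} (hp : Dg R p) (hq : Dg R q)
    (h : q ≠ 1) : p * q = 1 ∨ p = 1 := by
  rcases P011UGC5.e6 (t.au hp) with a | a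
  · exact .inr (pc_one a)
  rcases P011UGC5.e6 (t.au hq) with b | b
  · exact absurd (pc_one b) h
  · refine .inl (pc_one ((map_mul e.permCongrHom p q).trans ?_))
    show e.permCongr p * e.permCongr q = 1
    rw [a, b]
    decide

theorem conn5 (P : Fin 5 → Prop) (i j : Fin 5) (h : P i)
    (s : ∀ i j, P i → A 5 j i ≠ 0 → P j) : P j := by
  have a0 := s 0 1
  have a1 := s 1 2
  have a2 := s 2 3
  have a3 := s 3 4
  have b0 := s 1 0
  have b1 := s 2 1
  have b2 := s 3 2
  have b3 := s 4 3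
  have h0 : P 0 := by
    fin_cases i
    exacts [h, b0 h (by decide), b0 (b1 h (by decide)) (by decide),
      b0 (b1 (b2 h (by decide)) (by decide)) (by decide),
      b0 (b1 (b2 (b3 h (by decide)) (by decide)) (by decide)) (by decide)]
  have h1 := a0 h0 (by decide)
  have h2 := a1 h1 (by decide)
  have h3 := a2 h2 (by decide)
  fin_cases j
  exacts [h0, h1, h2, h3, a3 h3 (by decide)]

/-- the nodes of the subsystem of type `A₅` -/
def n5 : Fin 5 ↪ Fin 6 := ⟨![0, 2, 3, 4, 5], by decide⟩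

/-- the node of the subsystem of type `A₁` -/
def n1 : Fin 1 ↪ Fin 6 := ⟨fun _ => 1, fun _ _ _ => Subsingleton.elim _ _⟩

end

/-- Inner forms. -/
theorem inn6 (hb : HB) (lf : LF3) (tj : TJ0) (cm : CMP) (cx : CXG) (en : ENC) (mv : MOV) :
    AllG fun k K _ _ _ D T => Pc k → ∀ e, Ty D.R E₆ e → In1 T ∅ → Lift T ∨ FixP T (J0 e) := by
  intro k K _ _ _ _ D hk hD T hp e t hi
  haveI := Glob.inf hk
  haveI := Infinite.of_injective _ (algebraMap k K).injective
  have nfx := P011UC.nfx P011UB.aut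
  have px := P011UV.parx nfx
  have h1 : ¬T.Ani := by
    obtain ⟨L, hL, hG, h⟩ := lf k K D hk hD T hp.nnf e t hi
    haveI : FiniteDimensional k L := Module.finite_of_finrank_eq_succ hL
    haveI := sepCl L
    exact cub cx en mv k K D hk hD T hp.nor (ty_n3 t ![1, 0, 2, 0, 1, 2] (by decide) 0 (by decide))
      (ty_rk t (by decide)) hi L hL hG (qs_of (P011UC.res_res T L)
        (hb L K D (Glob.fin hk) hD _ (hp.ext L).nor (h _ (P011UC.res_res T L))))
  obtain ⟨J, hJ, h2⟩ := (px k K D hD T).1 h1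
  refine (tj k K D hD T e t hi J h2).elim .inl fun h3 => ?_
  obtain ⟨T', q, h4⟩ := lev nfx k K D hD T J h2
  have q' := P011UC.eqv_symm q
  have hi' := (((P011UIV.inv k K D hD T).1 T' q).2.2 ∅).2.1 hi
  have all : ∀ j, (e j = 1 → j ∈ J) → (e j = 3 → j ∈ J) → j ∈ J := fun j a b =>
    by_contra fun c => c (h3 ⟨fun d => c (a d), fun d => c (b d)⟩)
  by_cases c1 : e.symm 1 ∈ J
  · have c3 : e.symm 3 ∉ J := fun c3 => hJ (Set.eq_univ_of_forall fun j => all j
      (fun d => (e.eq_symm_apply.2 d).symm ▸ c1) fun d => (e.eq_symm_apply.2 d).symm ▸ c3)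
    have r1 : ∀ j, j ∈ Set.range (n1.trans e.symm.toEmbedding) ↔ e j = 1 := fun j =>
      ⟨by rintro ⟨i, rfl⟩; exact e.apply_symm_apply 1, fun d => ⟨0, (e.eq_symm_apply.2 d).symm⟩⟩
    obtain ⟨D', e', T'', hD', a1, a2, a3, a4, -⟩ := cm k K D hD T' hi' J h4 1
      (n1.trans e.symm.toEmbedding) one_pos (fun P i j h _ => Subsingleton.elim i j ▸ h)
      (by rintro _ ⟨i, rfl⟩; exact c1) fun j m m' i => by
        have b1 : e j ≠ 1 := fun d => m' ((r1 j).2 d)
        have b3 : e j ≠ 3 := fun d => c3 (e.eq_symm_apply.2 d ▸ m)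
        rw [t]
        show E₆ (e j) (e (e.symm 1)) = 0
        rw [e.apply_symm_apply]
        generalize e j = a at b1 b3
        revert a
        decide
    have a5 := a3 ∅ (P011UHB1.hba k K D' hD' T'' ⟨1, e', fun i j => by
      rw [a1, t]
      show E₆ (e (e.symm 1)) (e (e.symm 1)) = _
      rw [e.apply_symm_apply, Subsingleton.elim (e' i) 0, Subsingleton.elim (e' j) 0]
      rfl⟩ a2 (a4 fun i => ⟨fun j => ![1, 2, 2, 3, 2, 1] (e j), fun j => by
        rw [ty_pr t]
        show _ = if j = e.symm 1 then 1 else 0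
        simp only [e.eq_symm_apply]
        generalize e j = a
        revert a
        decide⟩))
    refine .inr (eqv_fix hD q' (j0_st t) ?_)
    rwa [Set.image_empty, Set.union_empty, show J \ _ = J0 e from Set.ext fun j =>
      ⟨fun m => ⟨fun d => m.2 ((r1 j).2 d), fun d => c3 (e.eq_symm_apply.2 d ▸ m.1)⟩,
        fun m => ⟨h3 m, fun d => m.1 ((r1 j).1 d)⟩⟩] at a5
  have c2 : ∀ j ∈ J, e j ≠ 1 := fun j m d => c1 (e.eq_symm_apply.2 d ▸ m)
  by_cases c3 : e.symm 3 ∈ J
  swap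
  · exact .inr (by rwa [show J = J0 e from
      Set.Subset.antisymm (fun j m => ⟨c2 j m, fun d => c3 (e.eq_symm_apply.2 d ▸ m)⟩) h3] at h2)
  have r5 : ∀ j, j ∈ Set.range (n5.trans e.symm.toEmbedding) ↔ e j ≠ 1 := fun j =>
    ⟨by
      rintro ⟨i, rfl⟩
      show e (e.symm (n5 i)) ≠ 1
      rw [e.apply_symm_apply]
      revert i
      decide, fun d => by
      obtain ⟨i, hi⟩ : ∃ i, n5 i = e j := by
        generalize e j = a at d
        revert a
        decide
      exact ⟨i, e.symm_apply_eq.2 hi⟩⟩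
  have a0 : ∀ i j, D.R.A (n5.trans e.symm.toEmbedding i) (n5.trans e.symm.toEmbedding j) =
      A 5 i j := fun i j => by
    rw [t]
    show E₆ (e (e.symm (n5 i))) (e (e.symm (n5 j))) = _
    rw [e.apply_symm_apply, e.apply_symm_apply]
    fin_cases i <;> fin_cases j <;> rfl
  have s5 : Set.range (n5.trans e.symm.toEmbedding) ⊆ J := fun j m => all j
    (fun d => absurd d ((r5 j).1 m)) fun d => (e.eq_symm_apply.2 d).symm ▸ c3
  obtain ⟨D', e', T'', hD', a1, a2, a3, -, a4⟩ := cm k K D hD T' hi' J h4 5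
    (n5.trans e.symm.toEmbedding) (by decide)
    (fun P i j h s => conn5 P i j h fun i j a b => s i j a (by rwa [a0])) s5
    fun j m m' => absurd ((r5 j).2 (c2 j m)) m'
  have t' : Ty D'.R (A 5) e' := fun i j => (a1 i j).trans (a0 _ _)
  have h5 : ¬T''.Ani := by
    obtain ⟨L, hL, hG, h⟩ := lf k K D hk hD T' hp.nnf e t hi'
    haveI : FiniteDimensional k L := Module.finite_of_finrank_eq_succ hL
    haveI := sepCl L
    haveI := Infinite.of_injective _ (algebraMap k L).injective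
    exact cub cx en mv k K D' hk hD' T'' hp.nor
      (ty_n3 t' ![1, 2, 0, 1, 2] (by decide) 0 (by decide)) (ty_rk t' (by decide)) a2 L hL hG
      (qs_of (P011UC.res_res T'' L) (P011UHB1.hba L K D' hD' _ ⟨5, e', t'⟩
        (in1_res (P011UC.res_res T'' L) (in1_mono a2 _)) (a4 L _ _ ‹_› (P011UC.res_res T' L)
          (P011UC.res_res T'' L) (h _ (P011UC.res_res T' L)))))
  obtain ⟨J', hJ', h6⟩ := (px k K D' hD' T'').1 h5
  have h7 := a3 J' h6
  refine (tj k K D hD T' e t hi' _ h7).imp (P011UIV.eqv_lift hD q') fun h8 => ?_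
  refine eqv_fix hD q' (j0_st t) (Set.Subset.antisymm h8 (fun j m => ?_) ▸ h7)
  obtain ⟨i, hi⟩ := (Set.ne_univ_iff_exists_notMem J').1 hJ'
  have h9 : ∀ i, n5.trans e.symm.toEmbedding (e' i) ∈ J \ Set.range (n5.trans e.symm.toEmbedding) ∪
      (fun i => n5.trans e.symm.toEmbedding (e' i)) '' J' → i ∈ J' := by
    rintro i (b | ⟨i', b, b'⟩)
    · exact absurd ⟨_, rfl⟩ b.2
    · exact e'.injective ((n5.trans e.symm.toEmbedding).injective b') ▸ b
  have b1 := (r5 _).1 ⟨e' i, rfl⟩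
  have b3 : e (n5.trans e.symm.toEmbedding (e' i)) = 3 :=
    by_contra fun d => hi (h9 i (h8 ⟨b1, d⟩))
  refine ⟨c2 j (m.elim (·.1) fun ⟨_, _, b⟩ => s5 ⟨_, b⟩), fun d => hi (h9 i ?_)⟩
  rwa [e.injective (b3.trans d.symm)]

/-- **E6I.** -/
theorem e6i_of (hb : HB) (lf : LF3) (tj : TJ0) (cm : CMP) (oj : OPJ) (o6 : OP6) (o2 : OP2)
    (cx : CXG) (en : ENC) (mv : MOV) : E6I := by
  rintro k K _ _ _ _ D hk hD T hn ⟨e, t⟩ an
  haveI := Glob.inf hk
  haveI := Infinite.of_injective _ (algebraMap k K).injective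
  have hp := pc_of hk hn
  have px := (P011UV.parx (P011UC.nfx P011UB.aut) k K D hD T).2
  have i6 := inn6 hb lf tj cm cx en mv
  obtain ⟨π, h1, h2, h3⟩ := P011UIV.sta k K D hD T
  by_cases hi : In1 T ∅
  · rcases i6 k K D hk hD T hp e t hi with h | h
    · exact px ⟨∅, (Set.Nonempty.ne_empty ⟨e.symm 0, Set.mem_univ _⟩).symm,
        hb k K D hk hD T hp.nor h⟩ an
    · exact px ⟨_, j0_ne, h⟩ an
  obtain ⟨θ, hθ⟩ : ∃ θ, π θ ≠ 1 := by
    by_contra c
    exact hi fun σ _ => not_not.1 (not_exists.1 c σ) ▸ h1 σ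
  have dg : ∀ σ, Dg D.R (π σ) := fun σ => let ⟨_, _, h⟩ := h1 σ; h.1
  obtain ⟨L, _, hL, h4⟩ := P011LQ.exists_field (Γ := π.ker) (op_of_near h3)
  replace hL : Module.finrank k L = 2 := hL.trans (Subgroup.index_eq_two_iff.2 ⟨θ, fun σ => by
    simp only [MonoidHom.mem_ker, map_mul]
    exact (dg_two t (dg σ) (dg θ) hθ).elim
      (fun a => .inl ⟨a, fun b => hθ (by rwa [b, one_mul] at a)⟩)
      fun b => .inr ⟨b, fun a => hθ (by rwa [b, one_mul] at a)⟩⟩)
  have h5 : In1 T L := fun σ s => (h4 σ).2 s ▸ h1 σ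
  haveI := sepCl L
  haveI := Infinite.of_injective _ (algebraMap k L).injective
  have r := P011UC.res_res T L
  by_cases hl : Lift (P011UC.res T L)
  · rcases P011UG2.opx2 k K D hD T L hL (qs_of r (hb L K D (Glob.fin hk) hD _ (hp.ext L).nor hl))
      (.inr h5) with h | ⟨T', θ', π', q, h, -⟩
    · exact h an
    · refine o2 k K D hk hD T' hp.nor L θ' π' hL h (.inl ⟨fun c => (nta _ c).2 e t, fun σ s => ?_⟩)
        (P011UC.eqa k K D hD T T' q an)
      obtain ⟨g, c, h⟩ := (((P011UIV.inv k K D hD T).1 T' q).2.2 L).2.1 h5 σ s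
      exact ⟨g, c, 1, h, one_pow 3⟩
  · rcases oj k K D hD T L hL h5 (J0 e) j0_ne ((fixS_iff r _).1
      ((i6 L K D (Glob.fin hk) hD _ (hp.ext L) e t (in1_res r h5)).resolve_left hl))
      fun J hJ h => (tj L K D hD _ e t (in1_res r h5) J ((fixS_iff r _).2 h)).resolve_left hl with
      h | ⟨T', θ', q, h⟩
    · exact h an
    · exact o6 k K D hk hD T' hp.nor e t L θ' hL
        (fun c => hi ((((P011UIV.inv k K D hD T').1 T (P011UC.eqv_symm q)).2.2 ∅).2.1 c)) h
        (P011UC.eqa k K D hD T T' q an)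

end Vale.Agent.P011UQ74
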