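import Vale.Agent.P011UQ.IF

/-!
One totally imaginary quadratic extension splits finitely many projective actions of exponent two
over a number field.
-/

set_option autoImplicit false
set_option linter.all false

namespace Vale.Agent.P011UQ74

open Matrix Module NumberField IsDedekindDomain IntermediateField Polynomial
open Vale.Agent.P011LD Vale.Agent.P011LQ Vale.Agent.P011 Vale.Agent.P011U

theorem above {k F : Type} [Field k] [Field F] [NumberField k] [NumberField F] [Algebra k F]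
    (v : HeightOneSpectrum (𝓞 k)) :
    ∃ w : HeightOneSpectrum (𝓞 F), w.asIdeal.comap (algebraMap (𝓞 k) (𝓞 F)) = v.asIdeal := by
  have hinj : Function.Injective (algebraMap (𝓞 k) (𝓞 F)) :=
    FaithfulSMul.algebraMap_injective (𝓞 k) (𝓞 F)
  have := v.isMaximal
  obtain ⟨Q, hQ, hQ2⟩ := Ideal.exists_ideal_over_maximal_of_isIntegral (S := 𝓞 F) v.asIdeal (by
    rw [(RingHom.injective_iff_ker_eq_bot _).mp hinj]; exact bot_le)
  refine ⟨⟨Q, hQ.isPrime, ?_⟩, hQ2⟩
  rintro rfl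
  exact v.ne_bot (hQ2.symm.trans (Ideal.comap_bot_of_injective _ hinj))

theorem rank_two {k K : Type} [Field k] [Field K] [Algebra k K] {a : k} {r : K}
    (hr : r ^ 2 = algebraMap k K a) (ha : ¬IsSquare a) : finrank k k⟮r⟯ = 2 := by
  have hm : minpoly k r = X ^ 2 - C a :=
    (minpoly.eq_of_irreducible_of_monic (X_pow_sub_C_irreducible_of_prime Nat.prime_two
      fun b hb => ha ⟨b, by rw [← hb, sq]⟩) (by
        rw [map_sub, map_pow, aeval_X, aeval_C, hr]; exact sub_self _)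
      (monic_X_pow_sub_C a two_ne_zero)).symm
  have hi : IsIntegral k r := ⟨X ^ 2 - C a, monic_X_pow_sub_C a two_ne_zero, by
    rw [eval₂_sub, eval₂_X_pow, eval₂_C, hr, sub_self]⟩
  rw [adjoin.finrank hi, hm, natDegree_X_pow_sub_C]

theorem bqn : P011UQ.BQN := by
  intro k K _ _ _ _ hk Γ hΓ hi ι n _ _ _ _ Δ A l hΔ h
  have := IsAlgClosure.isAlgClosed k (K := K)
  have : IsGalois k K := ⟨⟩
  obtain ⟨F, _, h1, h2⟩ := exists_field hΓ
  have : NumberField F := NumberField.of_module_finite k F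
  have : IsAlgClosure F K := ⟨inferInstance, Algebra.IsAlgebraic.tower_top (K := k) F⟩
  have key : ∀ i, ∃ S : Set (HeightOneSpectrum (𝓞 F)), S.Finite ∧ ∀ (a : k) (r : K),
      r ^ 2 = algebraMap k K a →
      (∀ w ∈ S, ¬IsSquare (algebraMap F (w.adicCompletion F) (algebraMap k F a))) →
      (∀ (Ψ : K →+* ℂ) (κ : K ≃ₐ[k] K), (∀ x, Ψ (κ x) = starRingEnd ℂ (Ψ x)) → κ r ≠ r) →
      Sp {σ | σ ∈ Δ i ∧ σ r = r} (A i) := fun i => by
    have hA := h i
    rcases hΔ i with e | e <;> rw [e] at hA ⊢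
    · obtain ⟨S, hS, h4⟩ := hA.two
      choose u hu using above (k := k) (F := F)
      refine ⟨u '' S, hS.image u, fun a r hr ha hκ => (h4 a r hr (fun w hw => ?_)
        fun Ψ κ e1 e2 => absurd e2 (hκ Ψ κ e1)).mono fun σ s => s.2⟩
      obtain ⟨g, -, g2⟩ := Pow.completion_map_cont (hu w)
      exact fun c => ha _ ⟨w, hw, rfl⟩ (g2 a ▸ c.map g)
    · obtain ⟨S, hS, h4⟩ := (hA.res h2).two
      exact ⟨S, hS, fun a r hr ha hκ => Sp.res h2 (h4 (algebraMap k F a) r hr ha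
        fun Ψ κ e1 e2 => absurd e2 (hκ Ψ (κ.restrictScalars k) e1))⟩
  choose S hS h4 using key
  obtain ⟨a, a1, a2, a3⟩ := exists_a (k := k) F (h1 ▸ hi) (Set.finite_iUnion hS) F ∅
  obtain ⟨r, hr⟩ := IsAlgClosed.exists_pow_nat_eq (algebraMap k K a) two_pos
  have pos : ∀ (φ : k →+* ℝ) (t : ℝ), φ a ≠ t ^ 2 := fun φ t e =>
    (a3 φ).1 (lt_of_le_of_ne (e ▸ sq_nonneg _) ((_root_.map_ne_zero φ).2 a.ne_zero).symm)
  refine ⟨r, rank_two hr fun c => a2 (c.map _), ⟨fun φ => ?_⟩, ?_, fun i =>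
    h4 i a r hr (fun w hw => a1 w (Set.mem_iUnion.2 ⟨i, hw⟩)) fun Ψ κ e1 e2 => ?_⟩
  · refine pos (φ.comp (algebraMap k _)) (φ (AdjoinSimple.gen k r)) ?_
    rw [← map_pow]
    exact congrArg φ (Subtype.ext hr.symm)
  · by_contra hc
    refine a2 ⟨⟨r, fixed_sub F fun σ s => ?_⟩, Subtype.ext (hr.symm.trans (sq r))⟩
    exact by_contra fun e => hc ⟨σ, (h2 σ).2 fun x hx => s ⟨x, hx⟩, e⟩
  · have re : ∀ x, κ x = x → ((Ψ x).re : ℂ) = Ψ x := fun x e =>
      Complex.conj_eq_iff_re.1 ((e1 x).symm.trans (congrArg Ψ e))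
    obtain ⟨φ, hφ⟩ := descend (Ψ.comp (algebraMap k K)) Complex.ofRealHom Complex.ofReal_injective
      fun x => ⟨_, re _ (κ.commutes x)⟩
    exact pos φ (Ψ r).re (Complex.ofReal_injective ((hφ a).trans (by
      rw [Complex.ofReal_pow, re r e2, ← map_pow, hr]; rfl)))

end Vale.Agent.P011UQ74
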