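import Vale.Agent.P011UQ.IF
import Vale.Agent.P011UD.Aut

/-!
The root data used in the block CQ.
-/

set_option autoImplicit false
set_option linter.all false

namespace Vale.Agent.P011UQ74

open Matrix CartanMatrix Vale.Agent.P183CH Vale.Agent.P011UD Vale.Agent.P011U

theorem dg3 : P011UQ.DG3 := fun _ hR hA h => P011U.dg3 hR hA h

theorem x1D {n : ℕ} (h : 4 ≤ n) (i : Fin (n + 1)) : ∃ (v : Fin (n + 1) → ℤ) (m : ℤ), ∀ b,
    ∑ a, v a * D (n + 1) a b = (if b = i then 2 else 0) - if b = 0 then m else 0 := by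
  rcases Nat.even_or_odd' n with ⟨m, hm | hm⟩
  · have := i.2
    by_cases e : i.1 + 2 < n + 1
    · refine ⟨fun a => (fun a : ℕ => if n + 1 ≤ a + 2 then (i.1 : ℤ) + 1 else
        if a < i then 2 * a + 2 else 2 * i.1 + 2) a, 0, fun b => ?_⟩
      have := b.2
      rw [sumD (by omega)]
      simp only [Fin.ext_iff, Fin.val_zero]
      split_ifs <;> omega
    · refine ⟨fun a => (fun a : ℕ => if a + 2 < n + 1 then (a : ℤ) else
        if a = i then m else m - 1) a, 1, fun b => ?_⟩
      have := b.2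
      rw [sumD (by omega)]
      simp only [Fin.ext_iff, Fin.val_zero]
      split_ifs <;> omega
  · obtain ⟨v, hv⟩ := x2D (n := n + 1) (by omega) ⟨m + 1, by omega⟩ i
    exact ⟨v, 0, fun b => by rw [hv, ite_self, sub_zero]⟩

theorem dg1 : P011UQ.DG1 := fun R n e t h => by
  refine ⟨fun π hπ => e.injective ?_, fun i => ?_⟩
  · simpa using autD (by omega) (t.au hπ) 0 (.inr ⟨by simp; omega, by omega⟩)
  · obtain ⟨v, m, hv⟩ := x1D h (e i)
    refine ⟨fun a => v (e a), m, fun b => ?_⟩
    have := hv (e b)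
    rw [← e.sum_comp] at this
    simpa only [RS.pr_eq, t _ _, e.apply_eq_iff_eq, e.eq_symm_apply] using this

end Vale.Agent.P011UQ74
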