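import Vale.Agent.P011UHB.E6
import Vale.Agent.P011UIV.Main
import Vale.Agent.P011UG2.Main
import Vale.Agent.P011UBL.Main
import Vale.Agent.P011UD7.Kit
import Vale.Agent.P011UP.Lev
import Vale.Agent.P011U.Top

/-!
Type `E₆` over function fields: tools and the cubic step.
-/

set_option autoImplicit false
set_option linter.all false

namespace Vale.Agent.P011UQ74

open Matrix Vale.Agent.P011L Vale.Agent.P183CH Vale.Agent.P011U Vale.Agent.P011UHB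
  Vale.Agent.P011UP

/-- positive characteristic -/
def Pc (k : Type) [Field k] : Prop := ∃ p : ℕ, p ≠ 0 ∧ (p : k) = 0

section

variable {k : Type} [Field k]

theorem pc_of (h : Glob k) (h' : ¬NumberField k) : Pc k := by
  rcases h with h | ⟨F, _, _, _, _⟩
  · exact absurd h h'
  · haveI := Fintype.ofFinite F
    refine ⟨Fintype.card F, Fintype.card_ne_zero, ?_⟩
    rw [← map_natCast ((algebraMap (RatFunc F) k).comp (algebraMap F (RatFunc F))),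
      FiniteField.cast_card_eq_zero, map_zero]

theorem Pc.ext (h : Pc k) (L : Type) [Field L] [Algebra k L] : Pc L :=
  h.imp fun p e => ⟨e.1, by rw [← map_natCast (algebraMap k L), e.2, map_zero]⟩

theorem Pc.nor (h : Pc k) : NoR k := ⟨fun φ => by
  obtain ⟨p, h1, h2⟩ := h
  exact h1 (Nat.cast_eq_zero.1 ((map_natCast φ p).symm.trans (h2 ▸ map_zero φ)))⟩

theorem Pc.nnf (h : Pc k) : ¬NumberField k := fun _ => by
  obtain ⟨p, h1, h2⟩ := h
  exact h1 (Nat.cast_eq_zero.1 h2)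

end

/-- a vector which is fixed modulo three by the Weyl group -/
def N3 (R : RS) : Prop := ∃ γ : R.Q, (∀ j, 3 ∣ R.pr γ j) ∧ ∃ i, ¬3 ∣ γ i

section

variable {R : RS} {n : ℕ} {C : Matrix (Fin n) (Fin n) ℤ} {e : Fin R.r ≃ Fin n}

theorem N3.neg (hR : R.Ok) (h : N3 R) {w : R.Aut} (hw : w ∈ R.W) : ¬∀ γ, w γ = -γ := by
  obtain ⟨γ, h1, i, h2⟩ := h
  obtain ⟨l, -, rfl⟩ := hR.exists_wd hw
  have : ∀ l, ∃ δ : R.Q, R.wd l γ = γ + (3 : ℤ) • δ := fun l => by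
    induction l with
    | nil => exact ⟨0, by simp [RS.wd_nil]⟩
    | cons j l ih =>
      obtain ⟨δ, e⟩ := ih
      obtain ⟨m, hm⟩ := h1 j
      refine ⟨R.sE j δ - m • R.α j, ?_⟩
      rw [RS.wd_cons, RS.mul_app, e, map_add, map_smul, hR.sE_eq j γ, hm]
      module
  intro c
  obtain ⟨δ, e⟩ := this l
  have := congrFun ((c γ).symm.trans e) i
  simp only [Pi.neg_apply, Pi.add_apply, Pi.smul_apply, smul_eq_mul] at this
  omega

theorem ty_pr (t : Ty R C e) (v : Fin n → ℤ) (j : Fin R.r) :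
    R.pr (fun i => v (e i)) j = (v ᵥ* C) (e j) := by
  rw [RS.pr_eq, vecMul, dotProduct, ← e.sum_comp]
  exact Finset.sum_congr rfl fun i _ => by rw [t]

theorem ty_n3 (t : Ty R C e) (v : Fin n → ℤ) (h : ∀ b, 3 ∣ (v ᵥ* C) b) (a : Fin n)
    (ha : ¬3 ∣ v a) : N3 R :=
  ⟨fun i => v (e i), fun j => ty_pr t v j ▸ h _, e.symm a, by simpa using ha⟩

theorem ty_rk (t : Ty R C e) (h : n ≠ 2) : ¬(R.r = 2 ∧ TyA R) := fun c =>
  h ((Fin.equiv_iff_eq.1 ⟨e⟩).symm.trans c.1)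

theorem std_pj {K G : Type} [Field K] [Group G] {Γ : RG R K G} (hΓ : Γ.Ok) (hR : R.Ok)
    {ψ : G →* G} {σ : K →+* K} {g : G} {c : Fin R.r → Kˣ} {π : Equiv.Perm (Fin R.r)}
    (h : Std Γ ψ σ g c π) {J : Set (Fin R.r)} (hJ : ∀ i, π i ∈ J ↔ i ∈ J) {p : G}
    (hp : p ∈ PJ Γ J) : g⁻¹ * ψ p * g ∈ PJ Γ J :=
  (sup_le (sup_le (fun v hv => GJ_le_PJ (Subgroup.mem_sup_left (std_X hΓ h hR
    (fun γ e _ => pm_In hJ e) hv))) fun t ht => GJ_le_PJ (Subgroup.mem_sup_right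
      (std_T hΓ h ht))) fun v hv => U_le_PJ (std_X hΓ h hR
        (fun γ e _ => pm_nonneg e) hv) : _ ≤ (PJ Γ J).comap
    ((MulAut.conj g).symm.toMonoidHom.comp ψ)) hp

end

section

variable {k K : Type} [Field k] [Field K] [Algebra k K] {D : Chev} {T T' : Tw k (D.grp K)}
  {L : IntermediateField k K} {T₁ : Tw L (D.grp K)}

theorem eqv_fix [Infinite K] (hD : SC D) (e : Eqv T T') {J : Set (Fin D.R.r)}
    (hJ : ∀ π, Dg D.R π → ∀ i, π i ∈ J ↔ i ∈ J) (h : FixP T J) : FixP T' J := by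
  obtain ⟨ψ, g0, c0, c1, π0, e, h0, h1⟩ := P011UIV.eqv_data hD e
  obtain ⟨y, h⟩ := h
  refine ⟨ψ y * g0, fun σ p hp => ?_⟩
  have h2 := std_pj GG_ok (Chev.R_ok D) (ψ := ψ.symm.toMonoidHom) (σ := RingHom.id K) h1
    (hJ _ h1.1) hp
  have h3 := std_pj GG_ok (Chev.R_ok D) (ψ := ψ.toMonoidHom) (σ := RingHom.id K) h0 (hJ _ h0.1)
    (h σ _ h2)
  have e1 : ψ (y * ((ψ.symm g0⁻¹)⁻¹ * ψ.symm.toMonoidHom p * ψ.symm g0⁻¹) * y⁻¹) =
      ψ y * g0 * p * (ψ y * g0)⁻¹ := by simp [mul_assoc]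
  rw [← e1, e]
  simpa [mul_assoc] using h3

theorem fixS_iff (e : Res T L T₁) (J : Set (Fin D.R.r)) : FixP T₁ J ↔ FixS T L J := by
  refine exists_congr fun y => ⟨fun h σ s => ?_, fun h σ => ?_⟩
  · have := h (AlgEquiv.ofRingEquiv (f := σ.toRingEquiv) fun x => s x.1 x.2)
    rwa [e] at this
  · rw [e]
    exact h _ fun x hx => σ.commutes ⟨x, hx⟩

theorem qs_of (e : Res T L T₁) (h : FixP T₁ ∅) : QS T L := by
  have := (fixS_iff e ∅).1 h
  rwa [FixS, P011UG2.PJ_empty (Chev.R_ok D)] at this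

theorem in1_res (e : Res T L T₁) (h : In1 T L) : In1 T₁ ∅ := fun σ _ => by
  rw [e]
  exact h _ fun x hx => σ.commutes ⟨x, hx⟩

theorem in1_mono (h : In1 T ∅) (S : Set K) : In1 T S := fun σ _ => h σ fun _ a => a.elim

theorem ex_move [IsGalois k K] (h : Module.finrank k L ≠ 1) :
    ∃ θ : K ≃ₐ[k] K, ¬Fx (L : Set K) θ := by
  by_contra c
  refine h (IntermediateField.finrank_eq_one_iff.2 (eq_bot_iff.2 fun x hx => ?_))
  exact (InfiniteGalois.mem_bot_iff_fixed x).2 fun σ => not_not.1 (not_exists.1 c σ) x hx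

end

/-- The cubic step. -/
theorem cub (cx : CXG) (en : ENC) (mv : MOV) : AllG fun k K _ _ _ D T => NoR k → N3 D.R →
    ¬(D.R.r = 2 ∧ TyA D.R) → In1 T ∅ → ∀ L : IntermediateField k K, Module.finrank k L = 3 →
      IsGalois k L → QS T L → ¬T.Ani := by
  intro k K _ _ _ _ D hk hD T hr h3 hA hi L hL hG hq an
  haveI := Glob.inf hk
  haveI : FiniteDimensional k L := Module.finite_of_finrank_eq_succ hL
  have hR := Chev.R_ok D
  obtain ⟨T', e, sp⟩ := P011UG2.nrm k K D hD T L ‹_› hq (in1_mono hi _)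
  have an' := P011UC.eqa k K D hD T T' e an
  obtain ⟨θ, hθ⟩ := ex_move (L := L) (by omega)
  obtain ⟨g, c, hs⟩ := (((P011UIV.inv k K D hD T).1 T' e).2.2 ∅).2.1 hi θ fun _ a => a.elim
  obtain ⟨a, ha⟩ := P011UBL.cell_ex GG_ok hR ((1 : D.grp K)⁻¹ * T'.a θ 1 * g)
  rcases cx k K D hD T' 3 L θ 1 1 a (.inl rfl)
    ⟨hL, hG, hθ, sp, fun σ _ => map_one _, g, c, hs, ha⟩ with
    h | ⟨y', a', h, -, h'⟩ | ⟨T'', w, χ, e', sp', h1, h2, h4, h5⟩
  · exact h an'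
  · obtain ⟨_, _, -, h6⟩ := h.pos
    rcases h' with h' | h'
    · exact h3.neg hR (P011UBL.cell_W h6) (h'.2 rfl)
    · exact absurd h'.1 (by decide)
  · obtain ⟨ρ, s, h6, h7, h8⟩ := en D.R hR 3 (.inl rfl) hA w h1 h2
    refine mv k K D hk hD T'' hr 3 L θ w χ ρ s Nat.prime_three hL hG hθ h6 h7 D.R.Φ le_rfl
      (fun γ m => P011UD7.ext_mem hR h1 m) h6.mem (fun γ _ σ a u => by rw [sp' σ a, fm_x]; rfl) h5
      (h8.imp (fun b => ⟨h4, by decide, b⟩) ?_) (P011UC.eqa k K D hD T' T'' e' an')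
    rintro ⟨ρ', s', y, b1, b2, b3, b4⟩
    exact ⟨ρ', s', y, b1, b2, b1.mem, b3, b4⟩

end Vale.Agent.P011UQ74
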